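import Vale.Agent.P088.TM.Defs
import Vale.Agent.P088.TM.Q.H275BC

/-!
# P088: two manifolds which share a boundary patch, abstract statements
-/

open Bundle Manifold MeasureTheory Set Filter Topology
open scoped ContDiff

noncomputable section

namespace Vale.Agent.P088.TM.Q

open Vale.Agent.P088.EYM

universe u

set_option linter.all false

/-- Match near the boundary. -/
def CNear_statement : Prop :=
  ∀ (n N : ℕ) [NeZero n] (M₁ M₂ : Type u)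
    [TopologicalSpace M₁] [ChartedSpace (EuclideanHalfSpace n) M₁]
    [IsManifold (𝓡∂ n) ∞ M₁] [T2Space M₁] [CompactSpace M₁] [ConnectedSpace M₁] [MeasurableSpace M₁]
    [BorelSpace M₁] [TopologicalSpace M₂] [ChartedSpace (EuclideanHalfSpace n) M₂]
    [IsManifold (𝓡∂ n) ∞ M₂] [T2Space M₂] [CompactSpace M₂] [ConnectedSpace M₂] [MeasurableSpace M₂]
    [BorelSpace M₂] (P : One n N M₁) (Q : One n N M₂) (G : Gl M₁ M₂) (K : Cls n N),
    3 ≤ n → 0 < N → G.Ok n N → SameD P Q G → EYMm K P.g P.A → EYMm K Q.g Q.A →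
    ∃ (O : Set M₂) (φ : M₂ → M₁) (V : M₂ → EndF N), LMatch P Q G O φ V ∧ O.Nonempty

/-- Limits of good points, part 2: good points are closed in the interior. -/
def CClosed_statement : Prop :=
  ∀ (n N : ℕ) [NeZero n] (M₁ M₂ : Type u)
    [TopologicalSpace M₁] [ChartedSpace (EuclideanHalfSpace n) M₁]
    [IsManifold (𝓡∂ n) ∞ M₁] [T2Space M₁] [CompactSpace M₁] [ConnectedSpace M₁] [MeasurableSpace M₁]
    [BorelSpace M₁] [TopologicalSpace M₂] [ChartedSpace (EuclideanHalfSpace n) M₂]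
    [IsManifold (𝓡∂ n) ∞ M₂] [T2Space M₂] [CompactSpace M₂] [ConnectedSpace M₂] [MeasurableSpace M₂]
    [BorelSpace M₂] (P : One n N M₁) (Q : One n N M₂) (G : Gl M₁ M₂) (K : Cls n N), 3 ≤ n → 0 < N →
    G.Ok n N → SameD P Q G → EYMm K P.g P.A → EYMm K Q.g Q.A →
    ∀ x₀ ∈ Mi n M₂, x₀ ∈ closure (Gd P Q G) → x₀ ∈ Gd P Q G

/-- The global match on the interior. -/
def CGlobal_statement : Prop :=
  ∀ (n N : ℕ) [NeZero n] (M₁ M₂ : Type u)
    [TopologicalSpace M₁] [ChartedSpace (EuclideanHalfSpace n) M₁]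
    [IsManifold (𝓡∂ n) ∞ M₁] [T2Space M₁] [CompactSpace M₁] [ConnectedSpace M₁] [MeasurableSpace M₁]
    [BorelSpace M₁] [TopologicalSpace M₂] [ChartedSpace (EuclideanHalfSpace n) M₂]
    [IsManifold (𝓡∂ n) ∞ M₂] [T2Space M₂] [CompactSpace M₂] [ConnectedSpace M₂] [MeasurableSpace M₂]
    [BorelSpace M₂] (P : One n N M₁) (Q : One n N M₂) (G : Gl M₁ M₂) (K : Cls n N),
    3 ≤ n → 0 < N → G.Ok n N → SameD P Q G → EYMm K P.g P.A → EYMm K Q.g Q.A →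
    ∃ (Φ : M₂ → M₁) (Ψ : M₁ → M₂) (V : M₂ → EndF N) (V' : M₁ → EndF N),
      (∀ x ∈ Mi n M₂, ∃ O, x ∈ O ∧ LMatch P Q G O Φ V) ∧
      (∀ x ∈ Mi n M₁, ∃ O, x ∈ O ∧ LMatch Q P G.symm O Ψ V') ∧
      (∀ x ∈ Mi n M₁, Φ (Ψ x) = x) ∧ ∀ x ∈ Mi n M₂, Ψ (Φ x) = x

end Vale.Agent.P088.TM.Q
end
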