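import Vale.Agent.P088.TM.Main
import Vale.Agent.P088.TM.Q.Defs

/-!
# P088: two manifolds, the main theorem in abstract form
-/

open Bundle Manifold MeasureTheory Set Filter Topology
open scoped ContDiff

noncomputable section

namespace Vale.Agent.P088.TM.Q

open Vale.Agent.P088 Vale.Agent.P088.EYM

universe u

set_option linter.all false

section

variable {n N : ℕ} [NeZero n] {M₁ M₂ : Type u}
  [TopologicalSpace M₁] [ChartedSpace (EuclideanHalfSpace n) M₁] [IsManifold (𝓡∂ n) ∞ M₁]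
  [TopologicalSpace M₂] [ChartedSpace (EuclideanHalfSpace n) M₂] [IsManifold (𝓡∂ n) ∞ M₂]

variable [MeasurableSpace M₁] [MeasurableSpace M₂]

end

/-- The main theorem in abstract form. -/
def CMain_statement : Prop :=
  ∀ (n N : ℕ) [NeZero n] (M₁ M₂ : Type u)
    [TopologicalSpace M₁] [ChartedSpace (EuclideanHalfSpace n) M₁]
    [IsManifold (𝓡∂ n) ∞ M₁] [T2Space M₁] [CompactSpace M₁] [ConnectedSpace M₁] [MeasurableSpace M₁]
    [BorelSpace M₁] [TopologicalSpace M₂] [ChartedSpace (EuclideanHalfSpace n) M₂]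
    [IsManifold (𝓡∂ n) ∞ M₂] [T2Space M₂] [CompactSpace M₂] [ConnectedSpace M₂] [MeasurableSpace M₂]
    [BorelSpace M₂] (P : One n N M₁) (Q : One n N M₂) (G : Gl M₁ M₂) (K : Cls n N),
    3 ≤ n → 0 < N → G.Ok n N → SameD P Q G → EYMm K P.g P.A → EYMm K Q.g Q.A →
    GE2 P Q G

theorem cMain : CGlobal_statement.{u} → CDiff_statement.{u} → CTensor_statement.{u} →
    CConn_statement.{u} → CData_statement.{u} → CMain_statement.{u} := by
  intro hGl hDi hTe hCo hDa n N _ M₁ M₂ _ _ _ _ _ _ _ _ _ _ _ _ _ _ _ _ P Q G K hn hN hG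
    hS hE₁ hE₂
  obtain ⟨Φ, Ψ, V, V', hm, hm', hinv, hinv'⟩ := hGl n N M₁ M₂ P Q G K hn hN hG hS hE₁ hE₂
  obtain ⟨F, H, hH, hFG⟩ := hDi n N M₁ M₂ P Q G Φ Ψ V V' hm hm' hinv hinv'
  have hLM : ∀ x ∈ Mi n M₂, ∃ O, x ∈ O ∧ LMatch P Q G O F H := by
    intro x hx
    obtain ⟨O, hxO, h⟩ := hm x hx
    exact ⟨O, hxO, cMain_congr h (fun y hy => (hFG y (h.sub hy)).1)
      fun y hy => (hFG y (h.sub hy)).2⟩
  obtain ⟨hmet, hcon, huni, hsol⟩ := hTe n N M₁ M₂ P Q G F H hH hLM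
  obtain ⟨⟨hP, hQ, -⟩, -⟩ := hDa n N M₁ M₂ P Q G hG hS
  obtain ⟨hIo, -, -⟩ := hCo n M₁
  have hbd : IsClosed ((𝓡∂ n).boundary M₁) := by
    rw [← ModelWithCorners.compl_interior]
    exact hIo.isClosed_compl
  have hGu : IsSmoothUnitary (𝓡∂ n) H := ⟨hH, huni⟩
  have hFbd : ∀ p ∈ (𝓡∂ n).boundary M₂, F p ∈ (𝓡∂ n).boundary M₁ := by
    intro p hp
    rw [← ModelWithCorners.compl_interior] at hp ⊢
    intro h
    obtain ⟨O, hO, hLO⟩ := hm' (F p) h
    have h1 : Ψ (F p) ∈ Mi n M₂ := hLO.maps hO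
    have h2 : F (Ψ (F p)) = F p := by
      rw [(hFG _ h1).1]
      exact hinv _ h
    have h3 := F.injective h2
    rw [h3] at h1
    exact hp h1
  have key : ∀ p ∈ G.Γ₂, ∀ (f₁ : M₁ → Fib N) (f₂ : M₂ → Fib N), MD n G f₁ f₂ →
      f₂ p = H p (f₁ (F p)) := by
    intro p hp f₁ f₂ hf
    obtain ⟨u₁, hu₁⟩ := hP f₁ hf.h₁
    obtain ⟨u₂, hu₂⟩ := hQ f₂ hf.h₂
    have hpb : p ∈ (𝓡∂ n).boundary M₂ := sub_bd hG.rel₂ hp
    have h1 := hsol (u₁, u₂) ⟨f₁, f₂, hf, hu₁, hu₂⟩ p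
    have h2 := hu₂.boundary p hpb
    have h3 := hu₁.boundary (F p) (hFbd p hpb)
    rw [← h2, ← h3]
    exact h1
  have hfix : ∀ p ∈ G.Γ₂, F p = G.ψ p := by
    intro p hp
    by_contra hne
    obtain ⟨f, hf, hfp, hf0⟩ := cMain_bump (N := N) hbd hG.rel₁ (hG.maps hp) (V := {F p}ᶜ)
      isClosed_singleton.isOpen_compl (fun h => hne (mem_singleton_iff.1 h).symm)
      (EuclideanSpace.single (⟨0, hN⟩ : Fin N) (1 : ℂ))
    obtain ⟨f₂, hf₂, hff⟩ := hG.ext f hf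
    have h1 := key p hp f f₂ ⟨hf, hf₂, hff⟩
    rw [hff p hp, hfp, hf0 (F p) (fun h => h rfl), map_zero] at h1
    have h2 : (EuclideanSpace.single (⟨0, hN⟩ : Fin N) (1 : ℂ) : Fib N) ⟨0, hN⟩ = 0 := by
      rw [h1]
      rfl
    simp at h2
  have hone : ∀ p ∈ G.Γ₂, H p = 1 := by
    intro p hp
    refine ContinuousLinearMap.ext fun e => ?_
    obtain ⟨f, hf, hfp, -⟩ := cMain_bump (N := N) hbd hG.rel₁ (hG.maps hp) isOpen_univ
      (mem_univ _) e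
    obtain ⟨f₂, hf₂, hff⟩ := hG.ext f hf
    have h1 := key p hp f f₂ ⟨hf, hf₂, hff⟩
    rw [hff p hp, hfix p hp, hfp] at h1
    exact h1.symm
  refine ⟨F, fun x => ContinuousLinearMap.adjoint (H x),
    ⟨contMDiff_adj hH, fun x => Unitary.star_mem (huni x)⟩, fun x hx => ⟨hfix x hx, ?_⟩, hmet,
    cMain_conn P Q F hGu hcon, fun u hu x => ?_⟩
  · show ContinuousLinearMap.adjoint (H x) = 1
    rw [hone x hx]
    exact star_one (EndF N)
  · show u.1 (F x) = ContinuousLinearMap.adjoint (H x) (u.2 x)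
    rw [hsol u hu x]
    have h4 : ContinuousLinearMap.adjoint (H x) * H x = 1 := (Unitary.mem_iff.1 (huni x)).1
    have h5 := congrArg (fun T : EndF N => T (u.1 (F x))) h4
    exact h5.symm

end Vale.Agent.P088.TM.Q
end
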