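import Vale.Agent.P088.TM.H332F
import Vale.Agent.P088.TM.Q.H332C

/-!
# P088, two manifolds: determination on an open set
-/

open Bundle Manifold MeasureTheory Set Filter Topology
open scoped ContDiff

noncomputable section

set_option linter.all false

namespace Vale.Agent.P088.TM.Q

open Vale.Agent.P088.EYM hiding CUnm_statement LMatch CCont_statement CReg_statement CDiff_statement cCont cReg cDiff cDiff_ext PP SameD Gd CData_statement CMatch_statement CNear_statement CLim_statement CCoord_statement CModEq_statement CClosed_statement CGlobal_statement CChart_statement CTensor_statement wGlue wInj wClosed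

universe u

/-- Match near a point of the patch, if the equations hold for both pairs near a point of the
patch. -/
def WNear_statement : Prop :=
  ∀ (n N : ℕ) [NeZero n] (M₁ M₂ : Type u)
    [TopologicalSpace M₁] [ChartedSpace (EuclideanHalfSpace n) M₁]
    [IsManifold (𝓡∂ n) ∞ M₁] [T2Space M₁] [CompactSpace M₁] [ConnectedSpace M₁] [MeasurableSpace M₁]
    [BorelSpace M₁] [TopologicalSpace M₂] [ChartedSpace (EuclideanHalfSpace n) M₂]
    [IsManifold (𝓡∂ n) ∞ M₂] [T2Space M₂] [CompactSpace M₂] [ConnectedSpace M₂] [MeasurableSpace M₂]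
    [BorelSpace M₂] (P : One n N M₁) (Q : One n N M₂) (G : Gl M₁ M₂) (K : Cls n N),
    3 ≤ n → 0 < N → G.Ok n N → TM.SameD P Q G → ∀ (W₁ : Set M₁) (W₂ : Set M₂), IsOpen W₁ →
    IsOpen W₂ → EYMw K P W₁ → EYMw K Q W₂ → ∀ x ∈ G.Γ₂, x ∈ W₂ → G.ψ x ∈ W₁ →
    ∃ p ∈ G.Γ₂ ∩ W₂, ∃ (O : Set M₂) (φ : M₂ → M₁) (V : M₂ → EndF N),
      TM.LMatch P Q G O φ V ∧ ∀ᶠ m in 𝓝 p, m ∈ Mi n M₂ → m ∈ O

section

variable {n N : ℕ} [NeZero n] {M₁ M₂ : Type u}
  [TopologicalSpace M₁] [ChartedSpace (EuclideanHalfSpace n) M₁]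
  [IsManifold (𝓡∂ n) ∞ M₁] [T2Space M₁] [CompactSpace M₁] [ConnectedSpace M₁]
  [MeasurableSpace M₁] [BorelSpace M₁] [TopologicalSpace M₂]
  [ChartedSpace (EuclideanHalfSpace n) M₂]
  [IsManifold (𝓡∂ n) ∞ M₂] [T2Space M₂] [CompactSpace M₂] [ConnectedSpace M₂]
  [MeasurableSpace M₂] [BorelSpace M₂]

/-- Determination near the patch: the equations hold for both pairs near a point of the patch. -/
theorem wLocal (hNear : WNear_statement.{u})
    (hA : AExtSys_statement) (hB : BChr_statement) (hUnm : TM.CUnm_statement.{u})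
    (hLoc : CLoc_statement.{u}) (hConn : EYM.CConn_statement.{u})
    (hChart : TM.CChart_statement.{u}) (hR : EYM.CRunge_statement.{u})
    (hData : TM.CData_statement.{u})
    (P : One n N M₁) (Q : One n N M₂) (G : Gl M₁ M₂) (K : Cls n N) (hn : 3 ≤ n) (hN : 0 < N)
    (hG : G.Ok n N) (hS : TM.SameD P Q G) {W₁ : Set M₁} {W₂ : Set M₂} (hW₁ : IsOpen W₁)
    (hW₂ : IsOpen W₂) (hP : EYMw K P W₁) (hQ : EYMw K Q W₂) {x : M₂} (hx : x ∈ G.Γ₂)
    (hxW₂ : x ∈ W₂) (hxW₁ : G.ψ x ∈ W₁) :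
    ∃ W ⊆ W₂, IsOpen W ∧ (W ∩ G.Γ₂).Nonempty ∧
      ∃ (F : M₂ → M₁) (H : M₂ → EndF N), WMatch P Q G W F H := by
  obtain ⟨p, ⟨hpΓ, hpW⟩, O, φ, V, hm, hev⟩ := hNear n N M₁ M₂ P Q G K hn hN hG hS W₁ W₂
    hW₁ hW₂ hP hQ x hx hxW₂ hxW₁
  obtain ⟨⟨hPs, hQs, -⟩, -⟩ := hData n N M₁ M₂ P Q G hG hS
  obtain ⟨W, hWs, hWo, hpW'⟩ := mem_nhds_iff.1 (inter_mem hev (hW₂.mem_nhds hpW))
  refine ⟨W, fun y hy => (hWs hy).2, hWo, ⟨p, hpW', hpΓ⟩, ?_⟩
  exact wFinal hA hB hUnm hLoc hConn hChart hR P Q G (by omega) hN hG hPs hQs hWo φ V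
    fun y hy => ⟨O, (hWs hy.1).1 hy.2, hm⟩

/-- Determination on an open set: the equations hold for `P` everywhere and for `Q` on a connected
open set `W` which meets the patch. -/
theorem wMain (hNear : WNear_statement.{u}) (hLim : TM.CLim_statement.{u})
    (hCoord : TM.CCoord_statement.{u}) (hModEq : TM.CModEq_statement.{u}) (hBM : BModel_statement)
    (hRig : BRigInt_statement) (hLin : LinInt_statement) (hBSol : BSol_statement)
    (hMatch : TM.CMatch_statement.{u}) (hHarm : CHarm_statement.{u}) (hU : CUniq_statement.{u})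
    (hA : AExtSys_statement) (hB : BChr_statement) (hUnm : TM.CUnm_statement.{u})
    (hLoc : CLoc_statement.{u}) (hConn : EYM.CConn_statement.{u})
    (hChart : TM.CChart_statement.{u}) (hR : EYM.CRunge_statement.{u})
    (hData : TM.CData_statement.{u})
    (P : One n N M₁) (Q : One n N M₂) (G : Gl M₁ M₂) (K : Cls n N) (hn : 3 ≤ n) (hN : 0 < N)
    (hG : G.Ok n N) (hS : TM.SameD P Q G) {W : Set M₂} (hW : IsOpen W) (hWc : IsPreconnected W)
    (hne : (W ∩ G.Γ₂).Nonempty) (hP : EYMw K P univ) (hQ : EYMw K Q W) :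
    ∃ (F : M₂ → M₁) (H : M₂ → EndF N), WMatch P Q G W F H := by
  obtain ⟨x, hxW, hxΓ⟩ := hne
  obtain ⟨p, ⟨hpΓ, hpW⟩, O, φ, V, hm, hev⟩ := hNear n N M₁ M₂ P Q G K hn hN hG hS
    univ W isOpen_univ hW hP hQ x hxΓ hxW (mem_univ _)
  obtain ⟨⟨hPs, hQs, -⟩, -⟩ := hData n N M₁ M₂ P Q G hG hS
  have hgood : ∀ x ∈ W ∩ Mi n M₂, x ∈ TM.Gd P Q G := by
    refine wGood (fun x₀ hx₀ hx₀W hcl => wClosed hLim hCoord hModEq hBM hRig hLin hBSol hMatch
      hHarm hU hLoc P Q G K hn hN hG hS hW hP hQ x₀ hx₀ hx₀W hcl) hLoc hConn hW hWc ?_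
    obtain ⟨U, hUs, hUo, hpU⟩ := mem_nhds_iff.1 (inter_mem hev (hW.mem_nhds hpW))
    obtain ⟨y, hyU, hyM⟩ := mem_closure_iff.1 ((hConn n M₂).2.2 p) U hUo hpU
    exact ⟨y, (hUs hyU).2, O, φ, V, hm, (hUs hyU).1 hyM⟩
  obtain ⟨Φ, V', hΦ⟩ := wGlue (P := P) (Q := Q) hR hConn (by omega) hN hG hPs hQs
  exact wFinal hA hB hUnm hLoc hConn hChart hR P Q G (by omega) hN hG hPs hQs hW Φ V'
    fun y hy => hΦ y (hgood y hy)

end

end Vale.Agent.P088.TM.Q
end
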