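import Vale.Agent.P088.TM.Asm
import Vale.Agent.P088.TM.Q.H332N

/-!
# P088: two manifolds, assembly
-/

namespace Vale.Agent.P088.TM.Q

open Vale.Agent.P088 Vale.Agent.P088.EYM

universe u

theorem fClosed : CClosed_statement.{u} :=
  cClosed fLim fCoord fModEq bModel fRigInt fLinInt bSol fMatch fHarm fUniq fLoc
theorem fGlobal : CGlobal_statement.{u} := cGlobal cNear fClosed fRunge fData fConn fUniq

/-- The main theorem for two manifolds, in abstract form. -/
theorem fMain : CMain_statement.{u} := cMain fGlobal fDiff fTensor fConn fData

end Vale.Agent.P088.TM.Q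

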